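import Vale.Agent.P366Z.Int

/-!
# P366L: the divergence theorem on the half-space
-/

open MeasureTheory Filter Topology Set
open scoped ContDiff ENNReal
open Vale.Agent.P366 Vale.Agent.P366.Stmt

noncomputable section

namespace Vale.Agent.P366L76

variable {k : ℕ}

/-- the point of the hyperplane `y₀ = 0` with the remaining coordinates `z` -/
def ins (z : E k) : E (k + 1) := WithLp.toLp 2 (Fin.cons 0 z.ofLp)

theorem ins_zero (z : E k) : ins z 0 = 0 := rfl

theorem ins_succ (z : E k) (i : Fin k) : ins z i.succ = z i := rfl

/-- the splitting of the coordinate space -/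
def spl (p : ℝ × E k) : E (k + 1) := WithLp.toLp 2 (Fin.cons p.1 p.2.ofLp)

theorem spl_zero (p : ℝ × E k) : spl p 0 = p.1 := rfl

theorem spl_eq (t : ℝ) (z : E k) : spl (t, z) = ins z + t • EuclideanSpace.single 0 1 := by
  ext i
  refine Fin.cases ?_ (fun j => ?_) i <;> simp [spl, ins]

theorem cont_spl : Continuous (spl (k := k)) := by
  refine (PiLp.continuous_toLp 2 _).comp (continuous_pi fun i => ?_)
  refine Fin.cases ?_ (fun j => ?_) i
  · exact continuous_fst
  · simp only [Fin.cons_succ]
    fun_prop

theorem cont_ins : Continuous (ins (k := k)) :=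
  cont_spl.comp (continuous_const.prodMk continuous_id)

theorem emb_ins : IsClosedEmbedding (ins (k := k)) :=
  Function.LeftInverse.isClosedEmbedding
    (f := fun y : E (k + 1) => (WithLp.toLp 2 fun i => y i.succ : E k)) (fun _ => rfl)
    (by fun_prop) cont_ins

theorem mp_spl : MeasurePreserving (spl (k := k)) (volume.prod volume) volume := by
  have h1 := (volume_preserving_piFinSuccAbove (fun _ : Fin (k + 1) => ℝ) 0).symm
  have h2 := (MeasurePreserving.id (volume : Measure ℝ)).prod
    (PiLp.volume_preserving_ofLp (Fin k))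
  have h3 := ((PiLp.volume_preserving_toLp (Fin (k + 1))).comp h1).comp h2
  rwa [show (_ ∘ _ : ℝ × E k → E (k + 1)) = spl from ?_] at h3
  funext p
  ext i
  refine Fin.cases ?_ (fun j => ?_) i <;>
    simp [spl, MeasurableEquiv.piFinSuccAbove, Fin.insertNthEquiv]

theorem memb_spl : MeasurableEmbedding (spl (k := k)) :=
  (Function.LeftInverse.isClosedEmbedding
    (f := fun y : E (k + 1) => (y 0, (WithLp.toLp 2 fun i => y i.succ : E k))) (fun _ => rfl)
    (by fun_prop) cont_spl).measurableEmbedding

/-- **the divergence theorem on the half-space** -/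
theorem flat {W : Fin (k + 1) → E (k + 1) → ℝ} (hW : ∀ i, ContDiff ℝ 1 (W i))
    (hc : ∀ i, HasCompactSupport (W i)) :
    ∫ y in {y : E (k + 1) | 0 ≤ y 0}, ∑ i, pd i (W i) y = -∫ z, W 0 (ins z) := by
  have hm : MeasurableSet {y : E (k + 1) | 0 ≤ y 0} :=
    (isClosed_le continuous_const (by fun_prop)).measurableSet
  have hd : ∀ i y, DifferentiableAt ℝ (W i) y := fun i => (hW i).differentiable one_ne_zero
  have hi : ∀ i, Integrable (pd i (W i)) := fun i => by
    rw [show pd i (W i) = fun y => fderiv ℝ (W i) y (EuclideanSpace.single i 1) from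
      funext fun y => P366Z.pd_eq (hd i y) i]
    exact (((hW i).continuous_fderiv one_ne_zero).clm_apply
      continuous_const).integrable_of_hasCompactSupport ((hc i).fderiv_apply ℝ _)
  rw [integral_finsetSum _ fun i _ => (hi i).integrableOn, Finset.sum_eq_single 0 ?_ (by simp)]
  · rw [← integral_indicator hm, ← mp_spl.integral_comp memb_spl, integral_prod_symm
      (fun p => {y : E (k + 1) | 0 ≤ y 0}.indicator (pd 0 (W 0)) (spl p))
      ((mp_spl.integrable_comp_emb memb_spl).2 ((hi 0).indicator hm)), ← integral_neg]
    refine integral_congr_ae (Eventually.of_forall fun z => ?_)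
    have e : ∀ t, {y : E (k + 1) | 0 ≤ y 0}.indicator (pd 0 (W 0)) (spl (t, z)) =
        (Ici 0).indicator (deriv fun s => W 0 (spl (s, z))) t := fun t => by
      have a : HasDerivAt (fun s : ℝ => spl (s, z)) (EuclideanSpace.single 0 1) t := by
        simpa [spl_eq] using ((hasDerivAt_id t).smul_const
          (EuclideanSpace.single (0 : Fin (k + 1)) (1 : ℝ))).const_add (ins z)
      have b : pd 0 (W 0) (spl (t, z)) = deriv (fun s => W 0 (spl (s, z))) t := by
        rw [P366Z.pd_eq (hd 0 _)]
        exact ((hd 0 _).hasFDerivAt.comp_hasDerivAt t a).deriv.symm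
      rw [indicator, indicator, b]
      rfl
    simp only [e]
    rw [integral_indicator measurableSet_Ici, integral_Ici_eq_integral_Ioi,
      HasCompactSupport.integral_Ioi_deriv_eq]
    · rfl
    · simp only [spl_eq]
      exact (hW 0).comp (by fun_prop)
    · exact (hc 0).comp_isClosedEmbedding (Function.LeftInverse.isClosedEmbedding
        (f := fun y : E (k + 1) => y 0) (fun _ => rfl) (by fun_prop)
        (cont_spl.comp (continuous_id.prodMk continuous_const)))
  · intro i _ h0
    have := integral_bilinear_hasLineDerivAt_right_eq_neg_left_of_integrable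
      (μ := (volume : Measure (E (k + 1)))) (B := ContinuousLinearMap.mul ℝ ℝ)
      (f := {y : E (k + 1) | 0 ≤ y 0}.indicator fun _ => 1) (f' := fun _ => 0) (g := W i)
      (g' := pd i (W i)) (v := EuclideanSpace.single i 1) (by simp) ?_ ?_ (fun x _ => ?_)
      fun x _ => (hd i x).lineDifferentiableAt.hasLineDerivAt
    · rw [← integral_indicator hm]
      simpa [← indicator_mul_left] using this
    · simpa [← indicator_mul_left] using (hi i).indicator hm
    · simpa [← indicator_mul_left] using
        ((hW i).continuous.integrable_of_hasCompactSupport (hc i)).indicator hm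
    · unfold HasLineDerivAt
      convert hasDerivAt_const (0 : ℝ)
        ({y : E (k + 1) | 0 ≤ y 0}.indicator (fun _ => (1 : ℝ)) x) using 2
      simp [indicator, h0.symm]

/-- the determinant of the tangential block -/
theorem det_block {A : Matrix (Fin (k + 1)) (Fin (k + 1)) ℝ} (hA : A.det ≠ 0) :
    A.det * A⁻¹ 0 0 = (A.submatrix Fin.succ Fin.succ).det := by
  rw [Matrix.inv_def, Matrix.smul_apply, smul_eq_mul, Ring.inverse_eq_inv, ← mul_assoc,
    mul_inv_cancel₀ hA, one_mul, Matrix.adjugate_fin_succ_eq_det_submatrix]
  simp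

end Vale.Agent.P366L76
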