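import Vale.Agent.P366L76.Flat
import Vale.Agent.P366SB.Bch
import Vale.Agent.P366M.Int
import Vale.Agent.P366M.Ext

/-!
# P366L: the area of a regular level set is at most the perimeter
-/

open MeasureTheory Metric Filter Topology Set
open scoped ContDiff ENNReal
open Vale.Agent.P366 Vale.Agent.P366M
open Vale.Agent.P366.Stmt (E)

noncomputable section

namespace Vale.Agent.P366L76

variable {k : ℕ}

/-- the area density of the hyperplane `y₀ = 0` -/
def den (g : Stmt.Field (k + 1)) (z : E k) : ℝ :=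
  √((Stmt.mat g (ins z)).submatrix Fin.succ Fin.succ).det

section L0

variable {M : Type} [Mf0 (k + 1) M] {g : Fld (k + 1) M} {G ψ : M → ℝ} {e : Ch (k + 1) M}
  {U : Set M} {x : M}

/-- the chart `e` is adapted to `G` on `U` -/
structure Ad (G : M → ℝ) (e : Ch (k + 1) M) (U : Set M) : Prop where
  mem : e ∈ At M
  op : IsOpen U
  sub : U ⊆ e.source
  eq : ∀ z ∈ U, e z 0 = G z

/-- the area measure of the chart `e` on `U` -/
def mu (g : Fld (k + 1) M) (e : Ch (k + 1) M) (U : Set M) : Measure M :=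
  (((volume : Measure (E k)).withDensity fun z => ENNReal.ofReal (den (rep e g) z)).restrict
    {z | e.symm (ins z) ∈ U}).map fun z => e.symm (ins z)

/-- the test field -/
def fld (g : Fld (k + 1) M) (G ψ : M → ℝ) : Fin (k + 1) → M → ℝ :=
  fun i y => -ψ y / gn g G y * gr g G i y

/-- the flux of the test field -/
def lam (g : Fld (k + 1) M) (G ψ : M → ℝ) : ℝ := ∫ x in {x | 0 ≤ G x}, dv g (fld g G ψ) x ∂vol g

theorem exists_ad (hG : Smooth G) (h0 : G x = 0) (h1 : ∃ i, pd i G x ≠ 0) :
    ∃ e U, Ad G e U ∧ x ∈ U := by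
  obtain ⟨e, h2, h3, h4, r, hr, h5⟩ := P366SB.bch hG h0 h1
  refine ⟨e, e.symm '' ball 0 r, ⟨h2, (openEmb_symm h2).isOpenMap _ isOpen_ball, image_sub h2 _,
    ?_⟩, 0, mem_ball_self hr, by rw [← h4, e.left_inv h3]⟩
  rintro _ ⟨y, hy, rfl⟩
  rw [right_inv h2, h5 y hy]

theorem memb (he : e ∈ At M) : MeasurableEmbedding fun z : E k => e.symm (ins z) :=
  (measEmb_symm he).comp emb_ins.measurableEmbedding

theorem cont_den {g : Stmt.Field (k + 1)} (hg : P366Z.Met g) : Continuous (den g) :=
  (Continuous.matrix_det (A := fun z : E k => (Stmt.mat g (ins z)).submatrix Fin.succ Fin.succ)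
    (continuous_matrix fun i j => (hg.sm i.succ j.succ).continuous.comp cont_ins)).sqrt

namespace Ad

variable (h : Ad G e U)
include h

theorem pd_eq {y : E (k + 1)} (hy : e.symm y ∈ U) (j : Fin (k + 1)) :
    Stmt.pd j (loc e G) y = if j = 0 then 1 else 0 := by
  rw [← P366Z.pd_coord j 0 y]
  refine P366Z.pd_congr ?_ j
  filter_upwards [(ev_iff h.mem).1 (h.op.mem_nhds hy)] with z hz
  rw [loc_apply, ← h.eq _ hz, right_inv h.mem]

theorem gn_eq (hG : Smooth G) {y : E (k + 1)} (hy : e.symm y ∈ U) :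
    gn g G (e.symm y) = √(Stmt.up (rep e g) 0 0 y) := by
  rw [← gn_rep h.mem g (hG.diff _)]
  simp [P366Z.gn, P366Z.ip, h.pd_eq hy]

theorem up_pos (hg : Met g) (y : E (k + 1)) : 0 < Stmt.up (rep e g) 0 0 y := by
  simpa [Pi.single_apply] using (hg.rep h.mem).up_pos y (ξ := Pi.single 0 1) (by simp)

theorem gn_pos (hg : Met g) (hG : Smooth G) (hx : x ∈ U) : 0 < gn g G x := by
  have a := e.left_inv (h.sub hx)
  rw [← a, h.gn_eq hG (a.symm ▸ hx)]
  exact Real.sqrt_pos.2 (h.up_pos hg _)

theorem cv (hg : Met g) (hG : Smooth G) (h1 : Smooth ψ) (h2 : tsupport ψ ⊆ U) :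
    CV ∞ (fld g G ψ) := by
  refine CV.smul ((cd_iff le_rfl).2 fun x => ?_) (hg.sm_gr hG)
  by_cases hx : x ∈ tsupport ψ
  · have := h.gn_pos hg hG (h2 hx)
    exact (CD.contDiffAt h1).neg.div ((CD.contDiffAt (hg.sm_ip hG hG)).sqrt
      (Real.sqrt_pos.1 this).ne') this.ne'
  · refine (cAt_const (c := 0)).congr_of_eventuallyEq ?_
    filter_upwards [notMem_tsupport_iff_eventuallyEq.1 hx] with z hz
    simp [hz]

omit h in
theorem dv_zero (hx : x ∉ tsupport ψ) : dv g (fld g G ψ) x = 0 := by
  rw [dv_congr (Y := fun i y => 0 * gr g G i y) fun i => ?_, dv_const_mul, zero_mul]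
  filter_upwards [notMem_tsupport_iff_eventuallyEq.1 hx] with z hz
  simp [fld, hz]

theorem integral_mu (hg : Met g) (h2 : ∀ x ∉ U, ψ x = 0) :
    ∫ x, ψ x ∂mu g e U = ∫ z, den (rep e g) z * ψ (e.symm (ins z)) := by
  rw [mu, (memb h.mem).integral_map, setIntegral_eq_integral_of_forall_compl_eq_zero
    (s := {z | e.symm (ins z) ∈ U}) (f := fun z => ψ (e.symm (ins z))) fun z hz => h2 _ hz,
    integral_withDensity_eq_integral_toReal_smul
    (cont_den (hg.rep h.mem)).measurable.ennreal_ofReal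
    (Eventually.of_forall fun _ => ENNReal.ofReal_lt_top)]
  simp only [den, ENNReal.toReal_ofReal (Real.sqrt_nonneg _), smul_eq_mul]

/-- **the chart formula** -/
theorem lam_eq (hg : Met g) (hG : Smooth G) (h1 : Smooth ψ) (hc : HasCompactSupport ψ)
    (h2 : tsupport ψ ⊆ U) : lam g G ψ = ∫ x, ψ x ∂mu g e U := by
  have z0 : ∀ x ∉ U, ψ x = 0 := fun x hx => image_eq_zero_of_notMem_tsupport fun k => hx (h2 k)
  have hT : MeasurableSet {x | 0 ≤ G x} := (isClosed_le continuous_const hG.cont).measurableSet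
  have hH : MeasurableSet {y : E (k + 1) | 0 ≤ y 0} :=
    (isClosed_le continuous_const (by fun_prop)).measurableSet
  have hv := h.cv hg hG h1 h2
  have hr := hg.rep h.mem
  have hB : IsCompact (e '' tsupport ψ) :=
    IsCompact.image_of_continuousOn hc (e.continuousOn.mono (h2.trans h.sub))
  have s1 : HasCompactSupport (loc e fun y => -ψ y / gn g G y) := supp_loc h.mem hB fun x hx => by
    have : x ∈ tsupport ψ := subset_tsupport _ fun k => hx (by simp [k])
    exact ⟨_, ⟨x, this, rfl⟩, e.left_inv (h.sub (h2 this))⟩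
  have f := flat (W := fun i y => P366Z.dens (rep e g) y * repV e (fld g G ψ) i y)
    (fun i => (hr.sm_dens.of_le one_le_oo).mul ((hv e h.mem i).of_le one_le_oo)) fun i => by
      unfold fld
      rw [repV_smul]
      exact s1.mul_right.mul_left
  rw [h.integral_mu hg z0, lam, ← integral_indicator hT, integral_chart hg h.mem fun x hx => by
    rw [indicator_apply_eq_zero.2 fun _ => dv_zero fun k => hx (h.sub (h2 k))]]
  refine .trans ?_ (f.trans ?_)
  · rw [← integral_indicator hH]
    refine integral_congr_ae (Eventually.of_forall fun y => ?_)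
    have a : ∑ i, Stmt.pd i (fun y => P366Z.dens (rep e g) y * repV e (fld g G ψ) i y) y =
        P366Z.dens (rep e g) y * dv g (fld g G ψ) (e.symm y) := by
      rw [← dv_rep hg h.mem (hv.dv (by simp) _), P366Z.dv, mul_div_cancel₀ _ (hr.dens_pos y).ne']
    simp only [indicator, a, smul_eq_mul, mul_ite, mul_zero]
    by_cases hy : e.symm y ∈ U
    · have := h.eq _ hy
      rw [right_inv h.mem] at this
      simp [this]
    · simp [dv_zero fun k => hy (h2 k)]
  · rw [← integral_neg]
    refine integral_congr_ae (Eventually.of_forall fun z => ?_)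
    unfold fld
    simp only [repV_smul, loc_apply]
    by_cases hy : e.symm (ins z) ∈ U
    · have a := h.up_pos hg (ins z)
      have b : den (rep e g) z = P366Z.dens (rep e g) (ins z) *
          √(Stmt.up (rep e g) 0 0 (ins z)) := by
        rw [den, ← det_block (hr.pos _).det_pos.ne', Real.sqrt_mul (hr.pos _).det_pos.le]
        rfl
      have c : repV e (gr g G) 0 (ins z) = Stmt.up (rep e g) 0 0 (ins z) := by
        rw [← gr_rep h.mem g (hG.diff _)]
        simp [P366Z.gr, h.pd_eq hy]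
      rw [b, c, h.gn_eq hG hy]
      have d := Real.sqrt_pos.2 a
      have d2 := Real.mul_self_sqrt a.le
      generalize √(Stmt.up (rep e g) 0 0 (ins z)) = s at d d2
      rw [← d2]
      field_simp
    · simp [z0 _ hy]

theorem ae_mu : ∀ᵐ x ∂mu g e U, x ∈ U ∧ G x = 0 := by
  rw [mu, (memb h.mem).ae_map_iff]
  filter_upwards [ae_restrict_mem ((memb h.mem).measurable h.op.measurableSet)] with z hz
  exact ⟨hz, by rw [← h.eq _ hz, right_inv h.mem, ins_zero]⟩

theorem int_mu (hg : Met g) (h1 : Continuous ψ) (hc : HasCompactSupport ψ)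
    (h2 : tsupport ψ ⊆ U) : Integrable ψ (mu g e U) := by
  rw [mu, (memb h.mem).integrable_map_iff]
  refine Integrable.restrict ?_
  have : IsLocallyFiniteMeasure ((volume : Measure (E k)).withDensity
      fun z => ENNReal.ofReal (den (rep e g) z)) :=
    IsLocallyFiniteMeasure.withDensity_ofReal (cont_den (hg.rep h.mem))
  refine ((cont_loc h.mem h1).comp cont_ins).integrable_of_hasCompactSupport
    ((supp_loc h.mem (IsCompact.image_of_continuousOn hc (e.continuousOn.mono (h2.trans h.sub)))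
      fun x hx => ?_).comp_isClosedEmbedding emb_ins)
  exact ⟨_, ⟨x, subset_tsupport _ hx, rfl⟩, e.left_inv (h.sub (h2 (subset_tsupport _ hx)))⟩

end Ad

theorem fld_le (hg : Met g) (h0 : 0 ≤ ψ x) (h1 : ψ x ≤ 1) :
    ∑ i, ∑ j, g x i j * fld g G ψ i x * fld g G ψ j x ≤ 1 := by
  have a : ∀ i, ∑ j, g x i j * gr g G j x = pd i G x := fun i => by
    simp only [gr, Finset.mul_sum, ← mul_assoc]
    rw [Finset.sum_comm]
    simp [← Finset.sum_mul, hg.mul_up]
  have b : ∑ i, ∑ j, g x i j * fld g G ψ i x * fld g G ψ j x =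
      (ψ x / gn g G x) ^ 2 * gn g G x ^ 2 := by
    rw [hg.gn_sq, ip_eq_gr, Finset.mul_sum]
    refine Finset.sum_congr rfl fun i _ => ?_
    rw [← a, Finset.sum_mul, Finset.mul_sum]
    refine Finset.sum_congr rfl fun j _ => ?_
    unfold fld
    ring
  rw [b, ← mul_pow]
  by_cases c : gn g G x = 0
  · simp [c]
  · rw [div_mul_cancel₀ _ c]
    exact pow_le_one₀ h0 h1

/-- **the comparison measure** -/
theorem exists_sigma (hg : Met g) (hG : Smooth G) (h1 : ∀ x, G x = 0 → ∃ i, pd i G x ≠ 0)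
    (hK : IsCompact {x | G x = 0}) : ∃ (σ : Measure M) (Z : Fin (k + 1) → M → ℝ) (C : Set M),
      (∀ e U, Ad G e U → mu g e U ≤ σ) ∧ CV ∞ Z ∧ IsCompact C ∧ (∀ x ∉ C, ∀ i, Z i x = 0) ∧
      (∀ x, ∑ i, ∑ j, g x i j * Z i x * Z j x ≤ 1) ∧
      σ univ = ENNReal.ofReal (∫ x in {x | 0 ≤ G x}, dv g Z x ∂vol g) := by
  classical
  have ex : ∀ x, ∃ (e : Ch (k + 1) M) (U O : Set M), O ∈ 𝓝 x ∧
      (G x = 0 → Ad G e U ∧ IsCompact O ∧ O ⊆ U) ∧ (G x ≠ 0 → ∀ z ∈ O, G z ≠ 0) := fun x => by
    by_cases hx : G x = 0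
    · obtain ⟨e, U, a, b⟩ := exists_ad hG hx (h1 x hx)
      obtain ⟨O, c, d, f⟩ := local_compact_nhds (a.op.mem_nhds b)
      exact ⟨e, U, O, c, fun _ => ⟨a, f, d⟩, fun k => (k hx).elim⟩
    · exact ⟨ch x, ∅, _, hG.cont.continuousAt.eventually_ne hx, fun k => (hx k).elim,
        fun _ _ k => k⟩
  choose e U O o1 o2 o3 using ex
  obtain ⟨t, χ, c1, c2, c3, c4, c5⟩ := exists_pou hK O o1
  obtain ⟨s, hs⟩ : ∃ s, s = t.filter fun p => G p = 0 := ⟨_, rfl⟩
  have s0 : ∀ p ∈ s, G p = 0 := fun p hp => by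
    rw [hs] at hp
    exact (Finset.mem_filter.1 hp).2
  have ad : ∀ p ∈ s, Ad G (e p) (U p) := fun p hp => (o2 p (s0 p hp)).1
  have cs : ∀ p ∈ s, HasCompactSupport (χ p) := fun p hp =>
    (o2 p (s0 p hp)).2.1.of_isClosed_subset (isClosed_tsupport _) (c2 p)
  have su : ∀ p ∈ s, tsupport (χ p) ⊆ U p := fun p hp => (c2 p).trans (o2 p (s0 p hp)).2.2
  have le1 : ∀ x, ∑ p ∈ s, χ p x ≤ 1 := fun x => le_trans (Finset.sum_le_sum_of_subset_of_nonneg
    (hs ▸ Finset.filter_subset _ _) fun p _ _ => c3 p x) (c4 x)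
  have eq1 : ∀ x, G x = 0 → ∑ p ∈ s, χ p x = 1 := fun x hx => by
    rw [← (c5 x hx).self_of_nhds, hs]
    refine Finset.sum_subset (Finset.filter_subset _ _) fun p hp hp' => by_contra fun k => ?_
    exact o3 p (fun l => hp' (Finset.mem_filter.2 ⟨hp, l⟩)) x (c2 p (subset_tsupport _ k)) hx
  have cv : ∀ p ∈ s, CV ∞ (fld g G (χ p)) := fun p hp => (ad p hp).cv hg hG (c1 p) (su p hp)
  let σ : Measure M := ∑ p ∈ s, (mu g (e p) (U p)).withDensity fun x => ENNReal.ofReal (χ p x)
  have li : ∀ φ : M → ℝ, Continuous φ → (∀ x, 0 ≤ φ x) → ∫⁻ x, ENNReal.ofReal (φ x) ∂σ =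
      ENNReal.ofReal (∑ p ∈ s, ∫ x, χ p x * φ x ∂mu g (e p) (U p)) := fun φ a b => by
    rw [lintegral_finsetSum_measure, ENNReal.ofReal_sum_of_nonneg fun p _ =>
      integral_nonneg fun x => mul_nonneg (c3 p x) (b x)]
    refine Finset.sum_congr rfl fun p hp => ?_
    rw [lintegral_withDensity_eq_lintegral_mul _ (c1 p).cont.measurable.ennreal_ofReal
      a.measurable.ennreal_ofReal, ofReal_integral_eq_lintegral_ofReal ((ad p hp).int_mu hg
        (ψ := fun x => χ p x * φ x) ((c1 p).cont.mul a) (cs p hp).mul_right (tsupport_mul_subset_left.trans (su p hp)))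
        (Eventually.of_forall fun x => mul_nonneg (c3 p x) (b x))]
    exact lintegral_congr fun x => (ENNReal.ofReal_mul (c3 p x)).symm
  have tot := li (fun _ => 1) continuous_const fun _ => zero_le_one
  simp only [ENNReal.ofReal_one, lintegral_one, mul_one] at tot
  have : IsFiniteMeasure σ := ⟨tot ▸ ENNReal.ofReal_lt_top⟩
  refine ⟨σ, fun i x => ∑ p ∈ s, fld g G (χ p) i x, ⋃ p ∈ s, tsupport (χ p), fun e' U' h => ?_,
    CV.sum cv, s.isCompact_biUnion cs, fun x hx i => Finset.sum_eq_zero fun p hp => ?_,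
    fun x => ?_, ?_⟩
  · have op : ∀ W, IsOpen W → mu g e' U' W ≤ σ W := fun W hW => by
      rw [← measure_congr (s := (W ∩ U' : Set M)) (inter_ae_eq_left_of_ae_eq_univ
        (ae_eq_univ.2 (h.ae_mu.mono fun _ k => k.1)))]
      refine le_of_forall_lt fun r hr => ?_
      obtain ⟨K, k1, k2, k3⟩ := ((Measure.InnerRegularWRT.isCompact_isClosed _).trans
        (Measure.InnerRegularWRT.of_pseudoMetrizableSpace _)) (hW.inter h.op) r hr
      obtain ⟨φ, a1, a2, a3, a4, a5⟩ := exists_cut k2 (hW.inter h.op) k1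
      have a6 := a3.trans inter_subset_right
      have i1 := h.int_mu hg a1.cont a2 a6
      refine k3.trans_le ?_
      calc mu g e' U' K ≤ ∫⁻ x, ENNReal.ofReal (φ x) ∂mu g e' U' := by
            rw [← lintegral_indicator_one k2.measurableSet]
            refine lintegral_mono fun x => ?_
            by_cases hx : x ∈ K
            · simp [hx, (a5 x hx).self_of_nhds]
            · simp [hx]
        _ = ∫⁻ x, ENNReal.ofReal (φ x) ∂σ := by
            rw [li φ a1.cont fun x => (a4 x).1, ← ofReal_integral_eq_lintegral_ofReal i1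
              (Eventually.of_forall fun x => (a4 x).1), integral_congr_ae
              (g := fun x => ∑ p ∈ s, χ p x * φ x) (h.ae_mu.mono fun x hx => by
                simp only [← Finset.sum_mul, eq1 x hx.2, one_mul]),
              integral_finsetSum _ fun p _ => h.int_mu hg (ψ := fun x => χ p x * φ x)
                ((c1 p).cont.mul a1.cont) a2.mul_left (tsupport_mul_subset_right.trans a6)]
            refine congrArg _ (Finset.sum_congr rfl fun p hp => ?_)
            have sm : Smooth fun x => χ p x * φ x := CD.mul (c1 p) a1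
            rw [← h.lam_eq hg hG sm a2.mul_left (tsupport_mul_subset_right.trans a6),
              (ad p hp).lam_eq hg hG sm a2.mul_left (tsupport_mul_subset_left.trans (su p hp))]
        _ ≤ σ W := by
            rw [← lintegral_indicator_one hW.measurableSet]
            refine lintegral_mono fun x => ?_
            by_cases hx : x ∈ W
            · rw [indicator_of_mem hx]
              exact ENNReal.ofReal_le_one.2 (a4 x).2
            · rw [image_eq_zero_of_notMem_tsupport fun l => hx (a3 l).1]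
              simp
    refine Measure.le_iff'.2 fun A => ?_
    rw [A.measure_eq_iInf_isOpen σ]
    exact le_iInf fun W => le_iInf fun a => le_iInf fun b => (measure_mono a).trans (op W b)
  · simp [fld, image_eq_zero_of_notMem_tsupport fun l => hx (mem_biUnion hp l)]
  · convert fld_le (G := G) (ψ := fun x => ∑ p ∈ s, χ p x) hg
      (Finset.sum_nonneg fun p _ => c3 p x) (le1 x) using 4 <;>
    simp only [fld, ← Finset.sum_mul, ← Finset.sum_div, Finset.sum_neg_distrib]
  · rw [tot]
    congr 1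
    have a : ∀ x, dv g (fun i x => ∑ p ∈ s, fld g G (χ p) i x) x =
        ∑ p ∈ s, dv g (fld g G (χ p)) x := fun x => by
      simp only [← Finset.sum_attach s]
      exact hg.dv_sum _ (X := fun p : s => fld g G (χ p)) fun p => (cv p p.2).dv (by simp) x
    simp only [a]
    rw [integral_finsetSum _ fun p hp => (hg.integrable_supp
      (hg.cont_dv ((cv p hp).of_le one_le_oo))
      (HasCompactSupport.intro (cs p hp) fun x hx => Ad.dv_zero hx)).integrableOn]
    exact Finset.sum_congr rfl fun p hp => ((ad p hp).lam_eq hg hG (c1 p) (cs p hp) (su p hp)).symm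

end L0

/-- **the area of the level set is at most the perimeter** -/
theorem bound {M : Type} [Mfe (k + 1) M] (X : Exterior (k + 1) M) {G : M → ℝ} (hG : IsExt G) :
    IsCompact {x | G x = 0} ∧
      ∃ σ : Measure M, (∀ e U, Ad G e U → mu X.g e U ≤ σ) ∧ σ univ ≤ X.area G := by
  obtain ⟨g1, g2, -, R, g4⟩ := hG
  have hK : IsCompact {x | G x = 0} := (Mfs.cpt R).of_isClosed_subset
    (isClosed_eq g1.cont continuous_const) fun x hx => not_lt.1 fun l => (g4 x l).ne' hx
  obtain ⟨σ, Z, C, h1, h2, h3, h4, h5, h6⟩ := exists_sigma X.met g1 g2 hK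
  obtain ⟨r, hr⟩ := h3.exists_bound_of_continuousOn (f := px)
    (CD.continuous Mfs.sm_px).continuousOn
  refine ⟨hK, σ, h1, le_sSup ⟨Z, ⟨h2, ⟨r, fun x hx => h4 x fun l => hx.not_ge (hr x l)⟩,
    fun x _ => h5 x⟩, h6.trans (congrArg _ ?_)⟩⟩
  have hT : MeasurableSet {z | 0 ≤ G z} := (isClosed_le continuous_const g1.cont).measurableSet
  rw [← integral_indicator hT, ← integral_indicator hT, X.met.integral_vol]
  exact integral_congr_ae (.of_forall fun z => (indicator_mul_left _ _ _).symm)

end Vale.Agent.P366L76
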